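import Vale.Agent.P033.Odd

namespace Vale.Agent.P033

open Polynomial

section
variable {K : Type*} [Field K]

lemma even_of_val_lt (V : ValuationSubring K) (h2 : V.valuation (2 : K) < 1) (a : ℤ)
    (ha : V.valuation (a : K) < 1) : Even a := by
  rcases Int.even_or_odd a with h | ⟨b, rfl⟩
  · exact h
  · exfalso
    have h3 : (1 : K) = ((2 * b + 1 : ℤ) : K) - 2 * (b : K) := by push_cast; ring
    have h4 : V.valuation (2 * (b : K)) < 1 := by
      rw [map_mul]
      exact lt_of_le_of_lt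
        (mul_le_of_le_one_right' ((V.valuation_le_one_iff _).2 (intCast_mem V b))) h2
    have h5 := V.valuation.map_sub_lt ha h4
    rw [← h3] at h5
    simp at h5

lemma split_at_one (γ : ℤ[X]) : ∃ δ : ℤ[X], γ = (X - 1) * δ + C (γ.eval 1) := by
  obtain ⟨δ, hδ⟩ := X_sub_C_dvd_sub_C_eval (p := γ) (a := 1)
  exact ⟨δ, by rw [C_1] at hδ; linear_combination hδ⟩

lemma val_eval_lt_iff (V : ValuationSubring K) (z : K) (hz : z ∈ V)
    (hz1 : V.valuation (z - 1) < 1) (γ : ℤ[X]) :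
    V.valuation (aeval z γ - ((γ.eval 1 : ℤ) : K)) < 1 := by
  obtain ⟨δ, hδ⟩ := split_at_one γ
  have h1 : aeval z γ - ((γ.eval 1 : ℤ) : K) = (z - 1) * aeval z δ := by
    conv_lhs => rw [hδ]
    simp
  rw [h1, map_mul]
  exact lt_of_le_of_lt (mul_le_of_le_one_right'
    ((V.valuation_le_one_iff _).2 (aeval_mem_subring V.toSubring hz δ))) hz1

lemma descent (V : ValuationSubring K) (h2 : V.valuation (2 : K) < 1) (L : ℕ) (hL0 : L ≠ 0)
    (ζ : K) (hζ : ζ ^ L = -1) (hζ1 : ζ ≠ 1) (ht : V.valuation (ζ - 1) < 1) (j : ℕ) :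
    ∀ γ : ℤ[X], V.valuation (aeval ζ γ) * V.valuation (aeval ζ⁻¹ γ) ≤
      V.valuation (ζ - 1) ^ (2 * j) → ∃ δ : ℤ[X], aeval ζ γ = (ζ - 1) ^ j * aeval ζ δ := by
  have hζ2 : ζ ^ (L * 2) = 1 := by rw [pow_mul, hζ]; simp
  have hL2 : L * 2 ≠ 0 := by omega
  have hζV : ζ ∈ V := mem_of_pow_eq_one V hL2 hζ2
  have hζ0 : ζ ≠ 0 := by
    rintro rfl
    rw [zero_pow hL2] at hζ2
    exact zero_ne_one hζ2
  have hζi : (ζ⁻¹) ^ L = -1 := by rw [inv_pow, hζ]; simp
  have hζiV : ζ⁻¹ ∈ V := mem_of_pow_eq_one V hL2 (by rw [inv_pow, hζ2, inv_one])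
  have hvi : V.valuation (ζ⁻¹ - 1) = V.valuation (ζ - 1) := by
    have : ζ⁻¹ - 1 = -(ζ⁻¹ * (ζ - 1)) := by field_simp; ring
    rw [this, Valuation.map_neg, map_mul, map_inv₀, val_eq_one_of_sub V ht, inv_one, one_mul]
  have ht0 : V.valuation (ζ - 1) ≠ 0 := by
    rw [Valuation.ne_zero_iff]; exact sub_ne_zero.2 hζ1
  induction j with
  | zero => intro γ _; exact ⟨γ, by simp⟩
  | succ j ih =>
    intro γ hγ
    have hlt : V.valuation (ζ - 1) ^ (2 * (j + 1)) < 1 := pow_lt_one₀ zero_le ht (by omega)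
    have ha : V.valuation ((γ.eval 1 : ℤ) : K) < 1 := by
      have h1 := val_eval_lt_iff V ζ hζV ht γ
      have h1' := val_eval_lt_iff V ζ⁻¹ hζiV (by rw [hvi]; exact ht) γ
      by_cases hc : V.valuation (aeval ζ γ) < 1
      · have := V.valuation.map_sub_lt hc h1
        simpa using this
      · have hc' : V.valuation (aeval ζ γ) = 1 := le_antisymm
          ((V.valuation_le_one_iff _).2 (aeval_mem_subring V.toSubring hζV γ)) (not_lt.1 hc)
        rw [hc', one_mul] at hγ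
        have := V.valuation.map_sub_lt (lt_of_le_of_lt hγ hlt) h1'
        simpa using this
    obtain ⟨b, hb⟩ := even_of_val_lt V h2 _ ha
    obtain ⟨δ, hδ⟩ := split_at_one γ
    set γ' : ℤ[X] := δ - C b * ∑ i ∈ Finset.range L, X ^ i with hγ'
    have hev : ∀ z : K, z ^ L = -1 → aeval z γ = (z - 1) * aeval z γ' := by
      intro z hz
      have h3 := mul_geom_sum z L
      rw [hz] at h3
      conv_lhs => rw [hδ, hb]
      simp only [hγ', map_add, map_mul, map_sub, aeval_X, map_one, map_sum, map_pow, eq_intCast,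
        map_intCast]
      linear_combination (b : K) * h3
    obtain ⟨δ', hδ'⟩ := ih γ' (by
      rw [hev ζ hζ, hev ζ⁻¹ hζi, map_mul, map_mul, hvi] at hγ
      have h4 : V.valuation (ζ - 1) ^ 2 * (V.valuation (aeval ζ γ') * V.valuation (aeval ζ⁻¹ γ'))
          ≤ V.valuation (ζ - 1) ^ 2 * V.valuation (ζ - 1) ^ (2 * j) := by
        calc _ = V.valuation (ζ - 1) * V.valuation (aeval ζ γ') *
              (V.valuation (ζ - 1) * V.valuation (aeval ζ⁻¹ γ')) := by
                rw [pow_two]; ac_rfl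
          _ ≤ _ := hγ
          _ = _ := by rw [← pow_add]; congr 1; ring
      exact le_of_mul_le_mul_left h4 (pow_pos (zero_lt_iff.2 ht0) 2))
    refine ⟨δ', ?_⟩
    rw [hev ζ hζ, hδ']; ring

lemma halve [CharZero K] (k : ℕ) (hk : k ≠ 0) (ζ : K) (hζ : IsPrimitiveRoot ζ (2 ^ (k + 1)))
    (γ : ℤ[X]) (c : ℤ) (h : aeval ζ γ * aeval ζ⁻¹ γ = 4 * (c : K)) :
    ∃ γ₁ q : ℤ[X], γ = 2 * γ₁ + (X ^ (2 ^ k) + 1) * q := by
  obtain ⟨V, hV⟩ := exists_val_lt_one (K := K) 2 le_rfl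
  have h2 : V.valuation (2 : K) < 1 := by simpa using hV
  have hζL : ζ ^ (2 ^ k) = -1 := by
    have : IsPrimitiveRoot (ζ ^ (2 ^ k)) 2 := hζ.pow (by positivity) (by rw [pow_succ])
    exact this.eq_neg_one_of_two_right
  have hζ1 : ζ ≠ 1 := by
    rintro rfl
    rw [one_pow] at hζL
    norm_num at hζL
  have hζV : ζ ∈ V := mem_of_pow_eq_one V (by positivity) hζ.pow_eq_one
  obtain ⟨r, hr⟩ := exists_add_pow_prime_pow_eq Nat.prime_two (X : ℤ[X]) (-1) k
  have hev : Even (2 ^ k) := (Nat.even_pow.2 ⟨even_two, hk⟩)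
  rw [hev.neg_one_pow] at hr
  set s : ℤ[X] := -(X * r) with hs
  have hr' : (X - 1 : ℤ[X]) ^ (2 ^ k) = X ^ (2 ^ k) + 1 + 2 * s := by
    rw [sub_eq_add_neg, hr, hs]; push_cast; ring
  have hs1 : s.eval 1 = -1 := by
    have := congrArg (eval 1) hr'
    simp only [eval_pow, eval_sub, eval_X, eval_one, sub_self, eval_add, one_pow, eval_mul,
      eval_ofNat, zero_pow (show 2 ^ k ≠ 0 by positivity)] at this
    omega
  have htL : (ζ - 1) ^ (2 ^ k) = 2 * aeval ζ s := by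
    have := congrArg (aeval ζ) hr'
    simp only [map_pow, map_sub, aeval_X, map_one, map_add, map_mul, map_ofNat, hζL] at this
    linear_combination this
  have hsV : V.valuation (aeval ζ s) ≤ 1 :=
    (V.valuation_le_one_iff _).2 (aeval_mem_subring V.toSubring hζV s)
  have ht : V.valuation (ζ - 1) < 1 := by
    have h1 : V.valuation (ζ - 1) ^ (2 ^ k) < 1 := by
      rw [← map_pow, htL, map_mul]
      exact lt_of_le_of_lt (mul_le_of_le_one_right' hsV) h2
    exact lt_of_pow_lt_pow_left₀ (2 ^ k) zero_le (by simpa using h1)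
  have hs' : V.valuation (aeval ζ s) = 1 := by
    have h1 := val_eval_lt_iff V ζ hζV ht s
    rw [hs1] at h1
    have h3 : V.valuation (-(aeval ζ s) - 1) < 1 := by
      rw [← Valuation.map_neg]
      convert h1 using 2
      push_cast; ring
    have := val_eq_one_of_sub V h3
    rwa [Valuation.map_neg] at this
  obtain ⟨δ, hδ⟩ := descent V h2 (2 ^ k) (by positivity) ζ hζL hζ1 ht (2 ^ k) γ (by
    rw [← map_mul, h, mul_comm 2, pow_mul, ← map_pow, htL, map_mul, map_mul, hs', mul_one,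
      show (4 : K) = 2 ^ 2 by norm_num, map_pow]
    exact mul_le_of_le_one_right' ((V.valuation_le_one_iff _).2 (intCast_mem V c)))
  have h0 : aeval ζ (γ - 2 * (s * δ)) = 0 := by
    simp only [map_sub, map_mul, map_ofNat]
    rw [hδ, htL]; ring
  have hdvd := minpoly.isIntegrallyClosed_dvd (hζ.isIntegral (by positivity)) h0
  rw [← cyclotomic_eq_minpoly hζ (by positivity), cyclotomic_prime_pow_eq_geom_sum Nat.prime_two]
    at hdvd
  obtain ⟨q, hq⟩ := hdvd
  refine ⟨s * δ, q, ?_⟩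
  simp only [Finset.sum_range_succ, Finset.range_zero, Finset.sum_empty, pow_zero, pow_one,
    zero_add] at hq
  linear_combination hq

/-- the correlation pairing summed over all powers of a root of unity -/
noncomputable def pairing (ζ : K) (N : ℕ) (γ δ : ℤ[X]) : K :=
  ∑ i ∈ Finset.range N, aeval (ζ ^ i) γ * aeval (ζ ^ i)⁻¹ δ

lemma pairing_add_left (ζ : K) (N : ℕ) (γ γ' δ : ℤ[X]) :
    pairing ζ N (γ + γ') δ = pairing ζ N γ δ + pairing ζ N γ' δ := by
  simp [pairing, add_mul, Finset.sum_add_distrib]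

lemma pairing_add_right (ζ : K) (N : ℕ) (γ δ δ' : ℤ[X]) :
    pairing ζ N γ (δ + δ') = pairing ζ N γ δ + pairing ζ N γ δ' := by
  simp [pairing, mul_add, Finset.sum_add_distrib]

lemma pairing_monomial (ζ : K) (N : ℕ) (i j : ℕ) (a b : ℤ) :
    pairing ζ N (monomial i a) (monomial j b) =
      a * b * ∑ l ∈ Finset.range N, (ζ ^ i * (ζ ^ j)⁻¹) ^ l := by
  unfold pairing
  rw [Finset.mul_sum]
  apply Finset.sum_congr rfl
  intro l _
  simp only [aeval_monomial, algebraMap_int_eq, eq_intCast, mul_pow, inv_pow, ← pow_mul,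
    mul_comm l]
  ring

lemma geom_zero {w : K} {N : ℕ} (hw : w ^ N = 1) (hw1 : w ≠ 1) :
    ∑ l ∈ Finset.range N, w ^ l = 0 := by
  have := mul_neg_geom_sum w N
  rw [hw, sub_self] at this
  exact (mul_eq_zero.1 this).resolve_left (sub_ne_zero.2 hw1.symm)

lemma pairing_symm (ζ : K) (N : ℕ) (hζ : ζ ^ N = 1) (γ δ : ℤ[X]) :
    ∃ s : ℤ, pairing ζ N γ δ = N * s ∧ pairing ζ N δ γ = N * s := by
  induction γ using Polynomial.induction_on' with
  | add p q hp hq =>
    obtain ⟨s, hs, hs'⟩ := hp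
    obtain ⟨t, ht, ht'⟩ := hq
    refine ⟨s + t, ?_, ?_⟩
    · rw [pairing_add_left, hs, ht]; push_cast; ring
    · rw [pairing_add_right, hs', ht']; push_cast; ring
  | monomial i a =>
    induction δ using Polynomial.induction_on' with
    | add p q hp hq =>
      obtain ⟨s, hs, hs'⟩ := hp
      obtain ⟨t, ht, ht'⟩ := hq
      refine ⟨s + t, ?_, ?_⟩
      · rw [pairing_add_right, hs, ht]; push_cast; ring
      · rw [pairing_add_left, hs', ht']; push_cast; ring
    | monomial j b =>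
      rw [pairing_monomial, pairing_monomial]
      have hinv : ζ ^ j * (ζ ^ i)⁻¹ = (ζ ^ i * (ζ ^ j)⁻¹)⁻¹ := by
        rw [mul_inv, inv_inv, mul_comm]
      have hw : (ζ ^ i * (ζ ^ j)⁻¹) ^ N = 1 := by
        rw [mul_pow, inv_pow, ← pow_mul, ← pow_mul, mul_comm i, mul_comm j, pow_mul, pow_mul, hζ]
        simp
      rw [hinv]
      generalize ζ ^ i * (ζ ^ j)⁻¹ = w at hw ⊢
      by_cases hw1 : w = 1
      · subst hw1
        refine ⟨a * b, ?_, ?_⟩
        · simp; ring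
        · simp; ring
      · refine ⟨0, ?_, ?_⟩
        · rw [geom_zero hw hw1]; simp
        · rw [geom_zero (by rw [inv_pow, hw, inv_one]) (inv_ne_one.2 hw1)]; simp

lemma pairing_self (ζ : K) (N : ℕ) (hN : N ≠ 0) (hζ : ζ ^ N = 1) (γ : ℤ[X]) :
    ∃ s : ℤ, pairing ζ N γ γ = N * s ∧ Even (s - γ.eval 1) := by
  have hζ0 : ζ ≠ 0 := by
    rintro rfl
    rw [zero_pow hN] at hζ
    exact zero_ne_one hζ
  induction γ using Polynomial.induction_on' with
  | add p q hp hq =>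
    obtain ⟨s, hs, hs'⟩ := hp
    obtain ⟨t, ht, ht'⟩ := hq
    obtain ⟨r, hr, hr'⟩ := pairing_symm ζ N hζ p q
    refine ⟨s + t + 2 * r, ?_, ?_⟩
    · rw [pairing_add_left, pairing_add_right, pairing_add_right, hs, ht, hr, hr']
      push_cast; ring
    · rw [eval_add, show s + t + 2 * r - (p.eval 1 + q.eval 1) =
        (s - p.eval 1) + (t - q.eval 1) + 2 * r by ring]
      exact (hs'.add ht').add (even_two_mul r)
  | monomial i a =>
    refine ⟨a * a, ?_, ?_⟩
    · rw [pairing_monomial, mul_inv_cancel₀ (pow_ne_zero i hζ0)]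
      simp; ring
    · simp only [eval_monomial, one_pow, mul_one]
      rw [show a * a - a = a * (a - 1) by ring]
      exact Int.even_mul_pred_self a

end

lemma even_descent (m o : ℤ) (hm : Odd m) (ho : Odd o) (e : ℕ) :
    ∀ (k : ℕ) (γ : ℤ[X]), e + 2 ≤ k →
      (∀ z : ℂ, z ^ (2 ^ (k + 1)) = 1 → z ≠ 1 →
        aeval z γ * aeval z⁻¹ γ = 4 ^ e * (m : ℂ) ^ 2) →
      (o * 2 ^ k + γ.eval 1) ^ 2 = 4 ^ e * m ^ 2 → False := by
  induction e with
  | zero =>
    intro k γ hk h1 h2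
    obtain ⟨k', rfl⟩ : ∃ k', k = k' + 2 := ⟨k - 2, by omega⟩
    have hζ := Complex.isPrimitiveRoot_exp (2 ^ (k' + 2 + 1)) (by positivity)
    generalize Complex.exp _ = ζ at hζ
    obtain ⟨s, hs, hs'⟩ := pairing_self ζ _ (by positivity) hζ.pow_eq_one γ
    obtain ⟨N, hN⟩ : ∃ N, 2 ^ (k' + 2 + 1) = N + 1 :=
      ⟨2 ^ (k' + 2 + 1) - 1, by have : 0 < 2 ^ (k' + 2 + 1) := by positivity
                                omega⟩
    unfold pairing at hs
    rw [hN, Finset.sum_range_succ'] at hs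
    have h3 : ∀ i ∈ Finset.range N,
        aeval (ζ ^ (i + 1)) γ * aeval (ζ ^ (i + 1))⁻¹ γ = (m : ℂ) ^ 2 := by
      intro i hi
      rw [h1 (ζ ^ (i + 1))]
      · simp
      · rw [← pow_mul, mul_comm, pow_mul, hζ.pow_eq_one, one_pow]
      · apply hζ.pow_ne_one_of_pos_of_lt (by omega)
        have := Finset.mem_range.1 hi
        omega
    rw [Finset.sum_congr rfl h3] at hs
    have h4 : aeval (1 : ℂ) γ = ((γ.eval 1 : ℤ) : ℂ) := by
      have := Polynomial.aeval_algebraMap_apply_eq_algebraMap_eval (A := ℂ) (1 : ℤ) γ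
      simpa using this
    simp only [Finset.sum_const, Finset.card_range, nsmul_eq_mul, pow_zero, inv_one, h4] at hs
    have h5 : (N : ℤ) * m ^ 2 + γ.eval 1 * γ.eval 1 = ((N + 1 : ℕ) : ℤ) * s := by
      exact_mod_cast hs
    have h6 : (N : ℤ) = 2 ^ (k' + 3) - 1 := by
      have : ((2 ^ (k' + 2 + 1) : ℕ) : ℤ) = ((N + 1 : ℕ) : ℤ) := by rw [hN]
      push_cast at this
      linear_combination -this
    push_cast at h5
    rw [h6] at h5
    generalize γ.eval 1 = g at h2 h5 hs'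
    have h7 : s = m ^ 2 - o ^ 2 * 2 ^ (k' + 1) - o * g := by
      apply mul_left_cancel₀ (show (2 : ℤ) ^ (k' + 3) ≠ 0 by positivity)
      linear_combination -h5 + h2
    obtain ⟨a, rfl⟩ := hm
    obtain ⟨b, rfl⟩ := ho
    have h8 : Odd (s - g) := by
      refine ⟨2 * a ^ 2 + 2 * a - (2 * b + 1) ^ 2 * 2 ^ k' - (b + 1) * g, ?_⟩
      rw [h7]; ring
    exact (Int.not_odd_iff_even.2 hs') h8
  | succ e ih =>
    intro k γ hk h1 h2
    obtain ⟨k', rfl⟩ : ∃ k', k = k' + 1 := ⟨k - 1, by omega⟩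
    have hζ := Complex.isPrimitiveRoot_exp (2 ^ (k' + 1 + 1)) (by positivity)
    generalize Complex.exp _ = ζ at hζ
    have hζ1 : ζ ≠ 1 := hζ.ne_one (Nat.one_lt_two_pow (by omega))
    obtain ⟨γ₁, q, hq⟩ := halve (k' + 1) (by omega) ζ hζ γ (4 ^ e * m ^ 2) (by
      rw [h1 ζ hζ.pow_eq_one hζ1]; push_cast; ring)
    have hev : ∀ z : ℂ, z ^ (2 ^ (k' + 1)) = 1 → aeval z γ = 2 * aeval z (γ₁ + q) := by
      intro z hz
      rw [hq]
      simp only [map_add, map_mul, map_ofNat, map_pow, aeval_X, map_one, hz]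
      ring
    apply ih k' (γ₁ + q) (by omega)
    · intro z hz hz1
      have h3 := h1 z (by rw [pow_succ, pow_mul, hz, one_pow]) hz1
      rw [hev z hz, hev z⁻¹ (by rw [inv_pow, hz, inv_one])] at h3
      linear_combination h3 / 4
    · have h3 : γ.eval 1 = 2 * (γ₁ + q).eval 1 := by
        rw [hq]; simp; ring
      rw [h3] at h2
      apply mul_left_cancel₀ (show (4 : ℤ) ≠ 0 by norm_num)
      linear_combination h2

theorem even_case (n u : ℕ) (hn : n = 4 * u ^ 2) (hu : Even u) (hu0 : u ≠ 0) (H D : ℤ[X])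
    (hH : H = ∑ j ∈ Finset.range n, X ^ j - 2 * D)
    (hdiv : (X ^ n - 1 : ℤ[X]) ∣ H * H.comp (X ^ (n - 1)) - (n : ℤ[X])) : False := by
  obtain ⟨e, m, hm, rfl⟩ := Nat.exists_eq_two_pow_mul_odd hu0
  have he : e ≠ 0 := by
    rintro rfl
    simp only [pow_zero, one_mul] at hu
    exact (Nat.not_even_iff_odd.2 hm) hu
  have hn0 : n ≠ 0 := by rw [hn]; positivity
  have hn' : n = 2 ^ (2 * e + 1 + 1) * m ^ 2 := by rw [hn]; ring
  have hmZ : Odd (m : ℤ) := by exact_mod_cast hm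
  apply even_descent (m : ℤ) ((m : ℤ) ^ 2) hmZ hmZ.pow e (2 * e + 1) (-D) (by omega)
  · intro z hz hz1
    have hzn : z ^ n = 1 := by rw [hn', pow_mul, hz, one_pow]
    have hzn' : z⁻¹ ^ n = 1 := by rw [inv_pow, hzn, inv_one]
    have h1 := eval_mul_inv H n hn0 hdiv z hzn
    rw [eval_H_of_ne_one H D n hH z hzn hz1,
      eval_H_of_ne_one H D n hH z⁻¹ hzn' (inv_ne_one.2 hz1), hn] at h1
    simp only [map_neg]
    push_cast at h1 ⊢
    rw [show (4 : ℂ) ^ e = 2 ^ e * 2 ^ e by rw [← mul_pow]; norm_num]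
    linear_combination h1 / 4
  · have h1 := eval_mul_inv H n hn0 hdiv (1 : ℚ) (one_pow n)
    rw [inv_one, eval_H_one H D n hH] at h1
    have h4 : aeval (1 : ℚ) D = ((D.eval 1 : ℤ) : ℚ) := by
      have := Polynomial.aeval_algebraMap_apply_eq_algebraMap_eval (A := ℚ) (1 : ℤ) D
      simpa using this
    rw [h4, hn] at h1
    have h5 : (((m : ℚ) ^ 2 * 2 ^ (2 * e + 1) + -(D.eval 1 : ℤ)) ^ 2 : ℚ) = 4 ^ e * (m : ℚ) ^ 2 := by
      push_cast at h1
      rw [show (4 : ℚ) ^ e = 2 ^ e * 2 ^ e by rw [← mul_pow]; norm_num]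
      linear_combination h1 / 4
    rw [eval_neg]
    exact_mod_cast h5

end Vale.Agent.P033
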