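import Mathlib

namespace Vale.Agent.P033

open Polynomial

section Gauss
variable {R : Type*} [CommRing R] [IsDomain R] [ValuationRing R]

lemma exists_dvd_all {ι : Type*} (s : Finset ι) (hs : s.Nonempty) (f : ι → R) :
    ∃ i ∈ s, ∀ j ∈ s, f i ∣ f j := by
  classical
  induction hs using Finset.Nonempty.cons_induction with
  | singleton a => exact ⟨a, by simp, by simp⟩
  | cons a s ha hs ih =>
    obtain ⟨i, hi, hij⟩ := ih
    rcases ValuationRing.dvd_total (f a) (f i) with h | h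
    · refine ⟨a, by simp, ?_⟩
      intro j hj
      rcases Finset.mem_cons.1 hj with rfl | hj
      · exact dvd_rfl
      · exact h.trans (hij j hj)
    · refine ⟨i, by simp [hi], ?_⟩
      intro j hj
      rcases Finset.mem_cons.1 hj with rfl | hj
      · exact h
      · exact hij j hj

lemma exists_primitive (F : R[X]) (hF : F ≠ 0) :
    ∃ (a : R) (F₀ : R[X]), F = C a * F₀ ∧ F₀.map (IsLocalRing.residue R) ≠ 0 := by
  obtain ⟨i, hi, hij⟩ := exists_dvd_all F.support (Polynomial.support_nonempty.2 hF) F.coeff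
  have hi0 : F.coeff i ≠ 0 := Polynomial.mem_support_iff.1 hi
  have hall : ∀ j, F.coeff i ∣ F.coeff j := by
    intro j
    by_cases hj : j ∈ F.support
    · exact hij j hj
    · rw [Polynomial.notMem_support_iff.1 hj]; exact dvd_zero _
  obtain ⟨F₀, hF₀⟩ := (Polynomial.C_dvd_iff_dvd_coeff _ _).2 hall
  refine ⟨F.coeff i, F₀, hF₀, ?_⟩
  have h1 : F₀.coeff i = 1 := by
    have := congrArg (fun q => Polynomial.coeff q i) hF₀
    simp only [coeff_C_mul] at this
    exact (mul_left_cancel₀ hi0 (by rw [mul_one]; exact this)).symm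
  intro h
  have := congrArg (fun q => Polynomial.coeff q i) h
  simp [h1] at this

lemma gauss (F G Q : R[X]) (c : R) (hc : c ≠ 0) (π : R)
    (hπ : π ∈ IsLocalRing.maximalIdeal R) (h : F * G = C c * (1 + C π * Q)) :
    ∃ a ∈ IsLocalRing.maximalIdeal R, F.eval 1 = F.eval 0 * (1 + a) := by
  have hres : IsLocalRing.residue R π = 0 := (IsLocalRing.residue_eq_zero_iff π).2 hπ
  have hmap : (1 + C π * Q).map (IsLocalRing.residue R) = 1 := by
    simp [Polynomial.map_add, Polynomial.map_mul, hres]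
  have hne : (1 + C π * Q) ≠ 0 := by
    intro h0
    rw [h0] at hmap
    simp at hmap
  have hFG : F * G ≠ 0 := by
    rw [h]; exact mul_ne_zero (C_ne_zero.2 hc) hne
  obtain ⟨a, F₀, hF₀, hF₀'⟩ := exists_primitive F (left_ne_zero_of_mul hFG)
  obtain ⟨b, G₀, hG₀, hG₀'⟩ := exists_primitive G (right_ne_zero_of_mul hFG)
  have h2 : C (a * b) * (F₀ * G₀) = C c * (1 + C π * Q) := by
    rw [← h, hF₀, hG₀, C_mul]; ring
  have hunit : IsUnit (F₀.map (IsLocalRing.residue R)) := by
    rcases ValuationRing.dvd_total (a * b) c with ⟨e, he⟩ | ⟨e, he⟩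
    · have hab : a * b ≠ 0 := by
        intro h0; apply hc; rw [he, h0, zero_mul]
      have h3 : F₀ * G₀ = C e * (1 + C π * Q) := by
        apply mul_left_cancel₀ (C_ne_zero.2 hab)
        rw [h2, he, C_mul (a := a * b)]; ring
      have h4 := congrArg (Polynomial.map (IsLocalRing.residue R)) h3
      rw [Polynomial.map_mul, Polynomial.map_mul, hmap, mul_one, map_C] at h4
      have h5 : IsLocalRing.residue R e ≠ 0 := by
        intro h0
        rw [h0, C_0] at h4
        exact mul_ne_zero hF₀' hG₀' h4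
      have h6 : IsUnit (C (IsLocalRing.residue R e)) := (isUnit_C).2 (Ne.isUnit h5)
      rw [← h4] at h6
      exact isUnit_of_mul_isUnit_left h6
    · have h3 : C e * (F₀ * G₀) = 1 + C π * Q := by
        apply mul_left_cancel₀ (C_ne_zero.2 hc)
        rw [← h2, he, C_mul]; ring
      have h4 := congrArg (Polynomial.map (IsLocalRing.residue R)) h3
      rw [Polynomial.map_mul, Polynomial.map_mul, hmap] at h4
      have h6 : IsUnit (Polynomial.map (IsLocalRing.residue R) (C e) *
          (F₀.map (IsLocalRing.residue R) * G₀.map (IsLocalRing.residue R))) := by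
        rw [h4]; exact isUnit_one
      exact isUnit_of_mul_isUnit_left (isUnit_of_mul_isUnit_right h6)
  obtain ⟨r, hr, hrF⟩ := Polynomial.isUnit_iff.1 hunit
  have hev : ∀ x : R, IsLocalRing.residue R (F₀.eval x) = r := by
    intro x
    rw [← Polynomial.eval_map_apply, ← hrF, eval_C]
  have hu0 : IsUnit (F₀.eval 0) := by
    rw [← IsLocalRing.residue_ne_zero_iff_isUnit, hev]
    exact hr.ne_zero
  obtain ⟨u, hu⟩ := hu0
  refine ⟨(F₀.eval 1 - F₀.eval 0) * (↑u⁻¹ : R), ?_, ?_⟩
  · apply Ideal.mul_mem_right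
    rw [← IsLocalRing.residue_eq_zero_iff, map_sub, hev, hev, sub_self]
  · rw [hF₀]
    simp only [eval_mul, eval_C]
    rw [← hu]
    have : (u : R) * (↑u⁻¹ : R) = 1 := u.mul_inv
    linear_combination (-a * (F₀.eval 1 - u)) * this

lemma key_ring (H : ℤ[X]) (n p : ℕ) (hp : p.Prime) (hn0 : (n : R) ≠ 0)
    (hpm : (p : R) ∈ IsLocalRing.maximalIdeal R)
    (hdiv : (X ^ n - 1 : ℤ[X]) ∣ H * H.comp (X ^ (n - 1)) - (n : ℤ[X]))
    (w ζ : R) (hw : w ^ n = 1) (hζ : ζ ^ p = 1) :
    ∃ a ∈ IsLocalRing.maximalIdeal R, aeval (w * ζ) H = aeval w H * (1 + a) := by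
  set π : R := ζ - 1 with hπdef
  obtain ⟨r, hr⟩ := exists_add_pow_prime_eq hp (1 : R) π
  have hπp : π ^ p = p * π * (-r) := by
    have h1 : (1 + π) = ζ := by rw [hπdef]; ring
    rw [h1, hζ, one_pow] at hr
    linear_combination -hr
  have hπm : π ∈ IsLocalRing.maximalIdeal R := by
    apply (IsLocalRing.maximalIdeal.isMaximal R).isPrime.mem_of_pow_mem p
    rw [hπp, mul_assoc]
    exact Ideal.mul_mem_right _ _ hpm
  set y : R[X] := 1 + C π * X with hy
  have hstep : ∀ k : ℕ, C ((p : R) ^ k * π) ∣ y ^ (p ^ k) - 1 := by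
    intro k
    induction k with
    | zero => exact ⟨X, by simp [hy]⟩
    | succ k ih =>
      obtain ⟨s, hs⟩ := ih
      obtain ⟨r', hr'⟩ := exists_add_pow_prime_eq hp (1 : R[X]) (C ((p : R) ^ k * π) * s)
      have h1 : y ^ (p ^ (k + 1)) = (1 + C ((p : R) ^ k * π) * s) ^ p := by
        rw [pow_succ, pow_mul, ← hs]; congr 1; ring
      obtain ⟨q, hq⟩ : ∃ q, p = q + 1 := ⟨p - 1, by have := hp.pos; omega⟩
      have h2 : ((p : R) ^ k * π) ^ p = ((p : R) ^ (k + 1) * π) * (((p : R) ^ k) ^ q * (-r)) := by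
        rw [mul_pow, hπp]
        have : ((p : R) ^ k) ^ p = ((p : R) ^ k) ^ q * (p : R) ^ k := by
          conv_lhs => rw [show ((p : R) ^ k) ^ p = ((p : R) ^ k) ^ (q + 1) by rw [← hq]]
          rw [pow_succ]
        rw [this]; ring
      refine ⟨C (((p : R) ^ k) ^ q * (-r)) * s ^ p + s * r', ?_⟩
      rw [h1, hr', mul_pow, ← C_pow, h2]
      simp only [C_mul, C_pow, map_natCast, map_neg, one_pow]
      ring
  have hn : n ≠ 0 := by
    intro h0; apply hn0; simp [h0]
  obtain ⟨N, m, hm, hnm⟩ := Nat.exists_eq_pow_mul_and_not_dvd hn p hp.ne_one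
  have hmu : IsUnit (m : R) := by
    by_contra hmu
    have hmm : (m : R) ∈ IsLocalRing.maximalIdeal R := hmu
    have hcop : IsCoprime (p : R) (m : R) := by
      have := Nat.Coprime.isCoprime ((Nat.Prime.coprime_iff_not_dvd hp).2 hm)
      simpa using this.map (Int.castRingHom R)
    obtain ⟨a, b, hab⟩ := hcop
    apply (IsLocalRing.maximalIdeal.isMaximal R).ne_top
    rw [Ideal.eq_top_iff_one, ← hab]
    exact Ideal.add_mem _ (Ideal.mul_mem_left _ _ hpm) (Ideal.mul_mem_left _ _ hmm)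
  obtain ⟨mu, hmu'⟩ := hmu
  have hyn : C ((n : R) * π) ∣ y ^ n - 1 := by
    have h1 : y ^ (p ^ N) - 1 ∣ y ^ n - 1 := by
      conv_rhs => rw [hnm, pow_mul]
      exact sub_one_dvd_pow_sub_one _ _
    have h2 : C ((n : R) * π) ∣ C ((p : R) ^ N * π) := by
      apply _root_.map_dvd
      refine ⟨(↑mu⁻¹ : R), ?_⟩
      have : (mu : R) * (↑mu⁻¹ : R) = 1 := mu.mul_inv
      rw [hnm]; push_cast; rw [← hmu']
      linear_combination (-(p : R) ^ N * π) * this
    exact h2.trans ((hstep N).trans h1)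
  set x₀ : R[X] := C w * y with hx₀
  have hx₀n : x₀ ^ n = y ^ n := by
    rw [hx₀, mul_pow, ← C_pow, hw, C_1, one_mul]
  have h3 := _root_.map_dvd (aeval x₀) hdiv
  simp only [map_sub, map_mul, map_pow, aeval_X, map_one, map_natCast, hx₀n] at h3
  obtain ⟨Q, hQ⟩ := hyn.trans h3
  have h4 : aeval x₀ H * aeval x₀ (H.comp (X ^ (n - 1))) = C (n : R) * (1 + C π * Q) := by
    rw [C_mul] at hQ
    simp only [map_natCast] at hQ ⊢
    linear_combination hQ
  obtain ⟨a, ha, hev⟩ := gauss _ _ _ _ hn0 π hπm h4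
  refine ⟨a, ha, ?_⟩
  have e : ∀ t : R, (aeval x₀ H).eval t = aeval (x₀.eval t) H := by
    intro t
    exact (Polynomial.aeval_algHom_apply (evalRingHom t).toIntAlgHom x₀ H).symm
  rw [e, e] at hev
  have e1 : x₀.eval 1 = w * ζ := by simp [hx₀, hy, hπdef]
  have e0 : x₀.eval 0 = w := by simp [hx₀, hy]
  rw [e1, e0] at hev
  exact hev

end Gauss

section Field
variable {K : Type*} [Field K]

lemma mem_of_pow_eq_one (V : ValuationSubring K) {w : K} {n : ℕ} (hn : n ≠ 0) (hw : w ^ n = 1) :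
    w ∈ V := by
  rcases V.mem_or_inv_mem w with h | h
  · exact h
  · obtain ⟨q, rfl⟩ : ∃ q, n = q + 1 := ⟨n - 1, by omega⟩
    have hw0 : w ≠ 0 := by
      rintro rfl; simp at hw
    have : w = (w⁻¹) ^ q := by
      rw [inv_pow]
      apply eq_inv_of_mul_eq_one_left
      rw [← hw]; ring
    rw [this]
    exact pow_mem h q

lemma key (V : ValuationSubring K) (H : ℤ[X]) (n p : ℕ) (hp : p.Prime) (hn0 : (n : K) ≠ 0)
    (hpm : V.valuation (p : K) < 1)
    (hdiv : (X ^ n - 1 : ℤ[X]) ∣ H * H.comp (X ^ (n - 1)) - (n : ℤ[X]))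
    (w ζ : K) (hw : w ^ n = 1) (hζ : ζ ^ p = 1) :
    ∃ a : K, V.valuation a < 1 ∧ aeval (w * ζ) H = aeval w H * (1 + a) := by
  have hn : n ≠ 0 := by
    intro h0; apply hn0; simp [h0]
  let w' : V := ⟨w, mem_of_pow_eq_one V hn hw⟩
  let ζ' : V := ⟨ζ, mem_of_pow_eq_one V hp.ne_zero hζ⟩
  have hn0' : (n : V) ≠ 0 := by
    intro h0; apply hn0
    have := congrArg (fun x : V => (x : K)) h0
    simpa using this
  have hpm' : (p : V) ∈ IsLocalRing.maximalIdeal V := by
    rw [V.valuation_lt_one_iff]; simpa using hpm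
  obtain ⟨a, ha, hev⟩ := key_ring H n p hp hn0' hpm' hdiv w' ζ'
    (Subtype.ext (by simpa using hw)) (Subtype.ext (by simpa using hζ))
  refine ⟨(a : K), (V.valuation_lt_one_iff a).1 ha, ?_⟩
  have e : ∀ t : V, ((aeval t H : V) : K) = aeval (t : K) H := by
    intro t
    exact (Polynomial.aeval_algHom_apply V.subtype.toIntAlgHom t H).symm
  have := congrArg (fun x : V => (x : K)) hev
  simp only [MulMemClass.coe_mul, AddMemClass.coe_add, OneMemClass.coe_one, e] at this
  exact this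

end Field

end Vale.Agent.P033
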