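import Vale.Agent.P033.Even

namespace Vale.Agent.P033

open Polynomial

lemma corr_eval {R : Type*} [CommRing R] (n : ℕ) [NeZero n] (g : Fin n → ℤ)
    (hg : ∀ t : Fin n, ∑ j, g j * g (j - t) = if t = 0 then (n : ℤ) else 0)
    (x x' : R) (hx : x ^ n = 1) (hx' : x * x' = 1) :
    (∑ j : Fin n, (g j : R) * x ^ (j : ℕ)) * (∑ j : Fin n, (g j : R) * x' ^ (j : ℕ)) = n := by
  have h1 : ∀ i t : Fin n, x ^ (i : ℕ) * x' ^ ((i - t : Fin n) : ℕ) = x ^ (t : ℕ) := by
    intro i t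
    have h2 : x ^ (i : ℕ) = x ^ (t : ℕ) * x ^ ((i - t : Fin n) : ℕ) := by
      conv_lhs => rw [show i = t + (i - t) by abel]
      rw [Fin.val_add, ← pow_eq_pow_mod _ hx, pow_add]
    rw [h2, mul_assoc, ← mul_pow, hx', one_pow, mul_one]
  rw [Finset.sum_mul_sum]
  have h3 : ∀ i : Fin n, ∑ j : Fin n, (g i : R) * x ^ (i : ℕ) * ((g j : R) * x' ^ (j : ℕ)) =
      ∑ t : Fin n, ((g i * g (i - t) : ℤ) : R) * x ^ (t : ℕ) := by
    intro i
    rw [← Equiv.sum_comp (Equiv.subLeft i)]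
    apply Finset.sum_congr rfl
    intro t _
    rw [Equiv.subLeft_apply, ← h1 i t]
    push_cast; ring
  rw [Finset.sum_congr rfl fun i _ => h3 i, Finset.sum_comm]
  have h4 : ∀ t : Fin n, ∑ i : Fin n, ((g i * g (i - t) : ℤ) : R) * x ^ (t : ℕ) =
      if t = 0 then (n : R) else 0 := by
    intro t
    rw [← Finset.sum_mul, ← Int.cast_sum, hg t]
    split_ifs with h
    · subst h; simp
    · simp
  rw [Finset.sum_congr rfl fun t _ => h4 t]
  simp

lemma corr_dvd (n : ℕ) [NeZero n] (g : Fin n → ℤ)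
    (hg : ∀ t : Fin n, ∑ j, g j * g (j - t) = if t = 0 then (n : ℤ) else 0) (H : ℤ[X])
    (hH : H = ∑ j : Fin n, C (g j) * X ^ (j : ℕ)) :
    (X ^ n - 1 : ℤ[X]) ∣ H * H.comp (X ^ (n - 1)) - (n : ℤ[X]) := by
  rw [← Ideal.mem_span_singleton, ← Ideal.Quotient.eq_zero_iff_mem]
  set f := Ideal.Quotient.mk (Ideal.span {(X ^ n - 1 : ℤ[X])}) with hf
  have hx : (f X) ^ n = 1 := by
    have : f (X ^ n - 1) = 0 := by
      rw [hf, Ideal.Quotient.eq_zero_iff_mem]; exact Ideal.mem_span_singleton_self _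
    rw [map_sub, map_pow, map_one] at this
    exact sub_eq_zero.1 this
  have hx' : f X * (f X) ^ (n - 1) = 1 := by
    rw [← pow_succ', Nat.sub_add_cancel (Nat.pos_of_ne_zero (NeZero.ne n)), hx]
  have := corr_eval n g hg (f X) ((f X) ^ (n - 1)) hx hx'
  rw [map_sub, map_mul, map_natCast, ← this, sub_eq_zero, hH]
  congr 1
  · simp
  · simp [Polynomial.sum_comp]

theorem seq_result (n : ℕ) [NeZero n] (d : Fin n → ℤ)
    (hg : ∀ t : Fin n, ∑ j, (1 - 2 * d j) * (1 - 2 * d (j - t)) =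
      if t = 0 then (n : ℤ) else 0) : n = 1 ∨ n = 4 := by
  have hn0 : n ≠ 0 := NeZero.ne n
  by_cases hn1 : n = 1
  · exact Or.inl hn1
  right
  set D : ℤ[X] := ∑ j : Fin n, C (d j) * X ^ (j : ℕ) with hD
  set H : ℤ[X] := ∑ j : Fin n, C (1 - 2 * d j) * X ^ (j : ℕ) with hH
  have hdiv := corr_dvd n (fun j => 1 - 2 * d j) hg H hH
  have hHD : H = ∑ j ∈ Finset.range n, X ^ j - 2 * D := by
    rw [hH, hD, ← Fin.sum_univ_eq_sum_range (fun j => (X : ℤ[X]) ^ j), Finset.mul_sum,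
      ← Finset.sum_sub_distrib]
    apply Finset.sum_congr rfl
    intro j _
    simp only [map_sub, map_mul, map_one, map_ofNat]
    ring
  have heven : Even n := by
    have ht : (⟨1, by omega⟩ : Fin n) ≠ 0 := by
      intro h
      have := congrArg Fin.val h
      simp at this
    have h1 := hg ⟨1, by omega⟩
    rw [if_neg ht] at h1
    have h2 := congrArg (Int.cast : ℤ → ZMod 2) h1
    have h3 : (2 : ZMod 2) = 0 := rfl
    simp only [Int.cast_sum, Int.cast_mul, Int.cast_sub, Int.cast_one, Int.cast_ofNat, h3,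
      zero_mul, sub_zero, mul_one, Finset.sum_const, Finset.card_univ, Fintype.card_fin,
      nsmul_eq_mul, Int.cast_zero] at h2
    exact (ZMod.natCast_eq_zero_iff_even).1 h2
  have hsq : (H.eval 1) ^ 2 = (n : ℤ) := by
    have h1 := eval_mul_inv H n hn0 hdiv (1 : ℚ) (one_pow n)
    have h4 : aeval (1 : ℚ) H = ((H.eval 1 : ℤ) : ℚ) := by
      have := Polynomial.aeval_algebraMap_apply_eq_algebraMap_eval (A := ℚ) (1 : ℤ) H
      simpa using this
    rw [inv_one, h4, ← pow_two] at h1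
    exact_mod_cast h1
  obtain ⟨u, hu⟩ : ∃ u : ℕ, n = 4 * u ^ 2 := by
    have h1 : Even (H.eval 1) := by
      have : Even ((H.eval 1) ^ 2) := by rw [hsq]; exact_mod_cast heven
      exact (Int.even_pow.1 this).1
    obtain ⟨v, hv⟩ := h1
    refine ⟨v.natAbs, ?_⟩
    have : (n : ℤ) = 4 * (v.natAbs : ℤ) ^ 2 := by
      rw [Int.natAbs_sq, ← hsq, hv]; ring
    exact_mod_cast this
  have hu0 : u ≠ 0 := by
    rintro rfl
    simp at hu
    exact hn0 hu
  rcases Nat.even_or_odd u with he | ho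
  · exact (even_case n u hu he hu0 H D hHD hdiv).elim
  · by_cases hu1 : u = 1
    · rw [hu, hu1]; norm_num
    · have hcyc := CyclotomicField.isCyclotomicExtension n ℚ
      obtain ⟨ω, hω⟩ := hcyc.exists_isPrimitiveRoot (Set.mem_singleton n) hn0
      exact (odd_case (K := CyclotomicField n ℚ) n u hu ho (by omega) ω hω H D hHD hdiv).elim

end Vale.Agent.P033
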