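import Vale.Agent.P033.Tools

namespace Vale.Agent.P033

open Polynomial

section Basic
variable {K : Type*} [Field K]

lemma pow_pred_eq_inv {z : K} {n : ℕ} (hn : n ≠ 0) (hz : z ^ n = 1) : z ^ (n - 1) = z⁻¹ := by
  obtain ⟨q, rfl⟩ : ∃ q, n = q + 1 := ⟨n - 1, by omega⟩
  apply eq_inv_of_mul_eq_one_left
  rw [← hz]; simp [pow_succ]

lemma eval_mul_inv (H : ℤ[X]) (n : ℕ) (hn : n ≠ 0)
    (hdiv : (X ^ n - 1 : ℤ[X]) ∣ H * H.comp (X ^ (n - 1)) - (n : ℤ[X]))
    (z : K) (hz : z ^ n = 1) : aeval z H * aeval z⁻¹ H = n := by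
  have h3 := _root_.map_dvd (aeval z) hdiv
  simp only [map_sub, map_mul, map_pow, aeval_X, map_one, map_natCast, hz, sub_self,
    zero_dvd_iff, aeval_comp, pow_pred_eq_inv hn hz] at h3
  linear_combination h3

lemma eval_H_of_ne_one (H D : ℤ[X]) (n : ℕ) (hH : H = ∑ j ∈ Finset.range n, X ^ j - 2 * D)
    (z : K) (hz : z ^ n = 1) (hz1 : z ≠ 1) : aeval z H = -2 * aeval z D := by
  have h1 : ∑ j ∈ Finset.range n, z ^ j = 0 := by
    have := mul_neg_geom_sum z n
    rw [hz, sub_self] at this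
    exact (mul_eq_zero.1 this).resolve_left (sub_ne_zero.2 hz1.symm)
  rw [hH]
  simp only [map_sub, map_mul, map_sum, map_pow, aeval_X, h1, map_ofNat]
  ring

lemma eval_H_one (H D : ℤ[X]) (n : ℕ) (hH : H = ∑ j ∈ Finset.range n, X ^ j - 2 * D) :
    aeval (1 : K) H = n - 2 * aeval (1 : K) D := by
  rw [hH]
  simp [map_ofNat]

lemma norm_eval_H (H : ℤ[X]) (n : ℕ) (hn : n ≠ 0)
    (hdiv : (X ^ n - 1 : ℤ[X]) ∣ H * H.comp (X ^ (n - 1)) - (n : ℤ[X]))
    (φ : K →+* ℂ) (z : K) (hz : z ^ n = 1) : ‖φ (aeval z H)‖ = √n := by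
  have e : φ (aeval z H) = aeval (φ z) H :=
    (Polynomial.aeval_algHom_apply φ.toIntAlgHom z H).symm
  have hz' : (φ z) ^ n = 1 := by rw [← map_pow, hz, map_one]
  have h1 := eval_mul_inv H n hn hdiv (φ z) hz'
  have hnorm : ‖φ z‖ = 1 := Complex.norm_eq_one_of_pow_eq_one hz' hn
  have h2 : (φ z)⁻¹ = (starRingEnd ℂ) (φ z) := Complex.inv_eq_conj hnorm
  have h3 : aeval ((starRingEnd ℂ) (φ z)) H = (starRingEnd ℂ) (aeval (φ z) H) :=
    Polynomial.aeval_algHom_apply (starRingEnd ℂ).toIntAlgHom (φ z) H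
  rw [h2, h3, Complex.mul_conj, Complex.normSq_eq_norm_sq] at h1
  have h4 : ‖aeval (φ z) H‖ ^ 2 = (n : ℝ) := by exact_mod_cast h1
  rw [e, ← h4, Real.sqrt_sq (norm_nonneg _)]

/-- functions on the four fourth roots of unity that come from the group ring over `V` -/
def ringB (V : ValuationSubring K) (I : K) (hI : I ^ 2 = -1) : Subring (Fin 4 → K) where
  carrier := {φ | ∃ a ∈ V, ∃ b ∈ V, ∃ c ∈ V, ∃ d ∈ V, ∀ j : Fin 4,
    φ j = a + b * I ^ (j : ℕ) + c * (I ^ (j : ℕ)) ^ 2 + d * (I ^ (j : ℕ)) ^ 3}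
  mul_mem' := by
    rintro φ ψ ⟨a, ha, b, hb, c, hc, d, hd, h⟩ ⟨a', ha', b', hb', c', hc', d', hd', h'⟩
    refine ⟨a * a' + b * d' + c * c' + d * b', ?_, a * b' + b * a' + c * d' + d * c', ?_,
      a * c' + b * b' + c * a' + d * d', ?_, a * d' + b * c' + c * b' + d * a', ?_, ?_⟩
    · exact add_mem (add_mem (add_mem (mul_mem ha ha') (mul_mem hb hd')) (mul_mem hc hc'))
        (mul_mem hd hb')
    · exact add_mem (add_mem (add_mem (mul_mem ha hb') (mul_mem hb ha')) (mul_mem hc hd'))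
        (mul_mem hd hc')
    · exact add_mem (add_mem (add_mem (mul_mem ha hc') (mul_mem hb hb')) (mul_mem hc ha'))
        (mul_mem hd hd')
    · exact add_mem (add_mem (add_mem (mul_mem ha hd') (mul_mem hb hc')) (mul_mem hc hb'))
        (mul_mem hd ha')
    · intro j
      have h4 : (I ^ (j : ℕ)) ^ 4 = 1 := by
        rw [← pow_mul, mul_comm, pow_mul, show I ^ 4 = (I ^ 2) ^ 2 by ring, hI]; simp
      rw [Pi.mul_apply, h j, h' j]
      generalize I ^ (j : ℕ) = z at h4 ⊢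
      linear_combination ((b * d' + c * c' + d * b') + (c * d' + d * c') * z + d * d' * z ^ 2) * h4
  one_mem' := ⟨1, one_mem _, 0, zero_mem _, 0, zero_mem _, 0, zero_mem _, by simp⟩
  add_mem' := by
    rintro φ ψ ⟨a, ha, b, hb, c, hc, d, hd, h⟩ ⟨a', ha', b', hb', c', hc', d', hd', h'⟩
    refine ⟨a + a', add_mem ha ha', b + b', add_mem hb hb', c + c', add_mem hc hc', d + d',
      add_mem hd hd', ?_⟩
    intro j
    rw [Pi.add_apply, h j, h' j]; ring
  zero_mem' := ⟨0, zero_mem _, 0, zero_mem _, 0, zero_mem _, 0, zero_mem _, by simp⟩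
  neg_mem' := by
    rintro φ ⟨a, ha, b, hb, c, hc, d, hd, h⟩
    refine ⟨-a, neg_mem ha, -b, neg_mem hb, -c, neg_mem hc, -d, neg_mem hd, ?_⟩
    intro j
    rw [Pi.neg_apply, h j]; ring

lemma const_mem_ringB (V : ValuationSubring K) (I : K) (hI : I ^ 2 = -1) {a : K} (ha : a ∈ V) :
    (fun _ => a) ∈ ringB V I hI :=
  ⟨a, ha, 0, zero_mem _, 0, zero_mem _, 0, zero_mem _, by simp⟩

lemma z_mem_ringB (V : ValuationSubring K) (I : K) (hI : I ^ 2 = -1) :
    (fun j : Fin 4 => I ^ (j : ℕ)) ∈ ringB V I hI :=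
  ⟨0, zero_mem _, 1, one_mem _, 0, zero_mem _, 0, zero_mem _, by simp⟩

lemma sum_ringB (V : ValuationSubring K) (I : K) (hI : I ^ 2 = -1) {φ : Fin 4 → K}
    (h : φ ∈ ringB V I hI) : ∃ a ∈ V, φ 0 + φ 1 + φ 2 + φ 3 = 4 * a := by
  obtain ⟨a, ha, b, hb, c, hc, d, hd, h⟩ := h
  refine ⟨a, ha, ?_⟩
  rw [h 0, h 1, h 2, h 3]
  simp only [Fin.val_zero, Fin.val_one, Fin.val_two, show ((3 : Fin 4) : ℕ) = 3 from rfl]
  linear_combination (b * (1 + I) + c * (1 + I ^ 4) +
    d * (1 - I ^ 2 + I ^ 3 + I ^ 4 - I ^ 5 + I ^ 7)) * hI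

lemma aeval_fun_mem (B : Subring (Fin 4 → K)) {x : Fin 4 → K} (hx : x ∈ B) (q : ℤ[X]) :
    (fun j => aeval (x j) q) ∈ B := by
  have : (fun j => aeval (x j) q) = aeval x q := by
    funext j
    exact Polynomial.aeval_algHom_apply (Pi.evalRingHom (fun _ : Fin 4 => K) j).toIntAlgHom x q
  rw [this]
  exact aeval_mem_subring B hx q

/-- units of a subring of functions -/
def unitsB (B : Subring (Fin 4 → K)) : Submonoid (Fin 4 → K) where
  carrier := {φ | φ ∈ B ∧ φ⁻¹ ∈ B}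
  mul_mem' := by
    rintro a b ⟨ha, ha'⟩ ⟨hb, hb'⟩
    refine ⟨mul_mem ha hb, ?_⟩
    rw [mul_inv]
    exact mul_mem ha' hb'
  one_mem' := ⟨one_mem _, by rw [inv_one]; exact one_mem _⟩

lemma unitsB_inv (B : Subring (Fin 4 → K)) : ∀ x ∈ unitsB B, x⁻¹ ∈ unitsB B := by
  rintro x ⟨h1, h2⟩
  exact ⟨h2, by rw [inv_inv]; exact h1⟩

end Basic

theorem odd_case {K : Type*} [Field K] [NumberField K] (n u : ℕ) (hn : n = 4 * u ^ 2)
    (hu : Odd u) (hu1 : 1 < u) (ω : K) (hω : IsPrimitiveRoot ω n) (H D : ℤ[X])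
    (hH : H = ∑ j ∈ Finset.range n, X ^ j - 2 * D)
    (hdiv : (X ^ n - 1 : ℤ[X]) ∣ H * H.comp (X ^ (n - 1)) - (n : ℤ[X])) : False := by
  have hu0 : u ≠ 0 := by omega
  have hn0 : n ≠ 0 := by rw [hn]; positivity
  have hnK : (n : K) ≠ 0 := Nat.cast_ne_zero.2 hn0
  have huK : (u : K) ≠ 0 := Nat.cast_ne_zero.2 hu0
  set y : K → K := fun z => aeval z H / 2 with hy
  set ζ : ℕ → K := fun p => ω ^ (n / p) with hζdef
  set S : Finset ℕ := u.primeFactors with hS
  have hSp : ∀ p ∈ S, p.Prime := fun p hp => Nat.prime_of_mem_primeFactors hp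
  have hSu : ∀ p ∈ S, p ∣ u := fun p hp => Nat.dvd_of_mem_primeFactors hp
  have hSn : ∀ p ∈ S, p ∣ n := fun p hp => by
    rw [hn]; exact ((hSu p hp).trans (dvd_pow_self u two_ne_zero)).mul_left 4
  have hζprim : ∀ p ∈ S, IsPrimitiveRoot (ζ p) p := fun p hp =>
    hω.pow (Nat.pos_of_ne_zero hn0) (Nat.div_mul_cancel (hSn p hp)).symm
  have hζn : ∀ p ∈ S, ζ p ^ n = 1 := fun p hp =>
    ((hζprim p hp).pow_eq_one_iff_dvd n).2 (hSn p hp)
  have hyy : ∀ z : K, z ^ n = 1 → y z * y z⁻¹ = (u : K) ^ 2 := by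
    intro z hz
    have := eval_mul_inv H n hn0 hdiv z hz
    simp only [hy]
    rw [hn] at this
    push_cast at this
    linear_combination this / 4
  have hy0 : ∀ z : K, z ^ n = 1 → y z ≠ 0 := by
    intro z hz h0
    have := hyy z hz
    rw [h0, zero_mul] at this
    exact pow_ne_zero 2 huK this.symm
  have hyne : ∀ z : K, z ^ n = 1 → z ≠ 1 → y z = - aeval z D := by
    intro z hz hz1
    simp only [hy]
    rw [eval_H_of_ne_one H D n hH z hz hz1]; ring
  have hyone : y 1 = 2 * (u : K) ^ 2 - aeval (1 : K) D := by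
    simp only [hy]
    rw [eval_H_one H D n hH, hn]; push_cast; ring
  have hyV : ∀ (V : ValuationSubring K) (z : K), z ^ n = 1 → y z ∈ V := by
    intro V z hz
    have hD : aeval z D ∈ V := aeval_mem_subring V.toSubring (mem_of_pow_eq_one V hn0 hz) D
    by_cases hz1 : z = 1
    · subst hz1
      rw [hyone]
      exact sub_mem (mul_mem (ofNat_mem V 2) (pow_mem (natCast_mem V u) 2)) hD
    · rw [hyne z hz hz1]; exact neg_mem hD
  have hprinc : ∀ (V : ValuationSubring K) (p : ℕ), p ∈ S → V.valuation (p : K) < 1 →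
      ∀ r : K, r ^ n = 1 → cube y ζ S r ∈ princM V := by
    intro V p hp hpV r hr
    apply cube_mem_of_pair (princM V) (princM_inv V) y ζ S n hζn p hp _ r hr
    intro w hw
    obtain ⟨a, ha, hev⟩ := key V H n p (hSp p hp) hnK hpV hdiv w (ζ p) hw
      (hζprim p hp).pow_eq_one
    have h1 : y (w * ζ p) = y w * (1 + a) := by
      simp only [hy]; rw [hev]; ring
    rw [h1, mul_inv, ← mul_assoc, mul_inv_cancel₀ (hy0 w hw), one_mul]
    apply princM_inv
    change V.valuation (1 + a - 1) < 1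
    simpa using ha
  have hint : ∀ r : K, r ^ n = 1 → IsIntegral ℤ (cube y ζ S r) := by
    intro r hr
    apply isIntegral_of_forall_mem
    intro V
    rw [← V.valuation_le_one_iff]
    by_cases huV : V.valuation (u : K) < 1
    · obtain ⟨p, hp, hpu, hpV⟩ := exists_prime_val_lt V u hu0 huV
      have hpS : p ∈ S := Nat.mem_primeFactors.2 ⟨hp, hpu, hu0⟩
      exact (val_eq_one_of_sub V (hprinc V p hpS hpV r hr)).le
    · have hu1' : V.valuation (u : K) = 1 := le_antisymm (natCast_val_le V u) (not_lt.1 huV)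
      have : cube y ζ S r ∈ unitsM V := by
        apply cube_mem_of_all (unitsM V) (unitsM_inv V) y ζ S n hζn _ r hr
        intro w hw
        have hw' : w⁻¹ ^ n = 1 := by rw [inv_pow, hw, inv_one]
        have h1 := congrArg V.valuation (hyy w hw)
        rw [map_mul, map_pow, hu1', one_pow] at h1
        have h2 := (V.valuation_le_one_iff _).2 (hyV V w hw)
        have h3 := (V.valuation_le_one_iff _).2 (hyV V w⁻¹ hw')
        change V.valuation (y w) = 1
        apply le_antisymm h2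
        rw [← h1]
        exact mul_le_of_le_one_right' h3
      exact le_of_eq this
  obtain ⟨p₀, hp₀⟩ : S.Nonempty := Nat.nonempty_primeFactors.2 hu1
  have hnorm : ∀ (φ : K →+* ℂ) (r : K), r ^ n = 1 → ‖φ (cube y ζ S r)‖ = 1 := by
    intro φ r hr
    have : cube y ζ S r ∈ normM φ := by
      apply cube_mem_of_pair (normM φ) (normM_inv φ) y ζ S n hζn p₀ hp₀ _ r hr
      intro w hw
      have hw' : (w * ζ p₀) ^ n = 1 := by rw [mul_pow, hw, hζn p₀ hp₀, one_mul]
      change ‖φ (y w * (y (w * ζ p₀))⁻¹)‖ = 1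
      simp only [hy]
      rw [map_mul, map_inv₀, map_div₀, map_div₀, norm_mul, norm_inv, norm_div, norm_div,
        norm_eval_H H n hn0 hdiv φ w hw, norm_eval_H H n hn0 hdiv φ _ hw']
      apply mul_inv_cancel₀
      apply div_ne_zero
      · exact Real.sqrt_ne_zero'.2 (by exact_mod_cast Nat.pos_of_ne_zero hn0)
      · rw [norm_ne_zero_iff, map_ofNat]; norm_num
    exact this
  obtain ⟨V₀, hV₀⟩ := exists_val_lt_one (K := K) p₀ (hSp p₀ hp₀).two_le
  have hp₀odd : Odd p₀ := hu.of_dvd_nat (hSu p₀ hp₀)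
  have hodd : ∀ r : K, r ^ n = 1 → ∃ M : ℕ, Odd M ∧ cube y ζ S r ^ M = 1 := by
    intro r hr
    obtain ⟨m, hm, hx⟩ := NumberField.Embeddings.pow_eq_one_of_norm_eq_one K ℂ (hint r hr)
      (fun φ => hnorm φ r hr)
    exact exists_odd_order V₀ (not_two_lt_of_odd V₀ p₀ hp₀odd hV₀) _ m hm hx
      (hprinc V₀ p₀ hp₀ hV₀ r hr)
  -- the two-adic part
  obtain ⟨V, hV⟩ := exists_val_lt_one (K := K) 2 le_rfl
  have hV2 : V.valuation (2 : K) < 1 := by simpa using hV
  have huV : V.valuation (u : K) = 1 := by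
    apply le_antisymm (natCast_val_le V u)
    by_contra hcon
    exact not_two_lt_of_odd V u hu (not_le.1 hcon) hV2
  have huinv : ((u : K) ^ 2)⁻¹ ∈ V := by
    rw [← V.valuation_le_one_iff, map_inv₀, map_pow, huV]; simp
  set I : K := ω ^ (u ^ 2) with hIdef
  have hIprim : IsPrimitiveRoot I 4 := hω.pow (Nat.pos_of_ne_zero hn0) (by rw [hn]; ring)
  have hI : I ^ 2 = -1 := by
    have : IsPrimitiveRoot (I ^ 2) 2 := hIprim.pow (by norm_num) (by norm_num)
    exact this.eq_neg_one_of_two_right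
  set B := ringB V I hI with hB
  set z : Fin 4 → K := fun j => I ^ (j : ℕ) with hz
  have hzB : z ∈ B := z_mem_ringB V I hI
  have hz4 : ∀ j, z j ^ 4 = 1 := by
    intro j
    simp only [hz]
    rw [← pow_mul, mul_comm, pow_mul, hIprim.pow_eq_one, one_pow]
  have h4n : ∀ x : K, x ^ 4 = 1 → x ^ n = 1 := by
    intro x hx
    rw [hn, pow_mul, hx, one_pow]
  have hzn : ∀ j, z j ^ n = 1 := fun j => h4n _ (hz4 j)
  have hinvB : ∀ x ∈ B, (∀ j, x j ^ n = 1) → x⁻¹ ∈ B := by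
    intro x hx hxn
    have : x⁻¹ = x ^ (n - 1) := by
      funext j
      rw [Pi.inv_apply, Pi.pow_apply, pow_pred_eq_inv hn0 (hxn j)]
    rw [this]; exact pow_mem hx _
  have hyinv : ∀ x : Fin 4 → K, (∀ j, x j ^ n = 1) →
      (fun j => y (x j))⁻¹ = (fun _ => ((u : K) ^ 2)⁻¹) * fun j => y (x⁻¹ j) := by
    intro x hxn
    funext j
    simp only [Pi.inv_apply, Pi.mul_apply]
    rw [← hyy _ (hxn j), mul_inv, mul_assoc, inv_mul_cancel₀, mul_one]
    apply hy0
    rw [inv_pow, hxn j, inv_one]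
  have hyB : ∀ x ∈ B, (∀ j, x j ^ n = 1) → (∀ j, x j ≠ 1) → (fun j => y (x j)) ∈ B := by
    intro x hx hxn hx1
    have : (fun j => y (x j)) = -(fun j => aeval (x j) D) := by
      funext j
      rw [hyne _ (hxn j) (hx1 j)]; rfl
    rw [this]
    exact neg_mem (aeval_fun_mem B hx D)
  have hyU : ∀ x ∈ B, (∀ j, x j ^ n = 1) → (∀ j, x j ≠ 1) → (fun j => y (x j)) ∈ unitsB B := by
    intro x hx hxn hx1
    refine ⟨hyB x hx hxn hx1, ?_⟩
    rw [hyinv x hxn]
    apply mul_mem (const_mem_ringB V I hI huinv)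
    apply hyB _ (hinvB x hx hxn)
    · intro j; rw [Pi.inv_apply, inv_pow, hxn j, inv_one]
    · intro j; rw [Pi.inv_apply]; exact inv_ne_one.2 (hx1 j)
  have hy4 : ∀ x : K, x ^ 4 = 1 →
      y x = - aeval x D + (u : K) ^ 2 / 2 * (1 + x + x ^ 2 + x ^ 3) := by
    intro x hx
    by_cases hx1 : x = 1
    · subst hx1
      rw [hyone]; ring
    · have : 1 + x + x ^ 2 + x ^ 3 = 0 := by
        apply mul_left_cancel₀ (sub_ne_zero.2 hx1)
        linear_combination hx
      rw [hyne x (h4n x hx) hx1, this]; ring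
  have hysq : ∀ x ∈ B, (∀ j, x j ^ 4 = 1) → (fun j => y (x j)) ^ 2 ∈ B := by
    intro x hx hx4
    have h1 : (fun j => y (x j)) ^ 2 = (fun j => aeval (x j) D) ^ 2
        - (fun _ => (u : K) ^ 2) * (fun j => aeval (x j) D) * (1 + x + x ^ 2 + x ^ 3)
        + (fun _ => (u : K) ^ 4) * (1 + x + x ^ 2 + x ^ 3) := by
      funext j
      simp only [Pi.pow_apply, Pi.add_apply, Pi.sub_apply, Pi.mul_apply, Pi.one_apply]
      rw [hy4 _ (hx4 j)]
      have h4 := hx4 j
      generalize x j = t at h4 ⊢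
      linear_combination ((u : K) ^ 4 / 4 * (3 + 2 * t + t ^ 2)) * h4
    have hσ : 1 + x + x ^ 2 + x ^ 3 ∈ B :=
      add_mem (add_mem (add_mem (one_mem _) hx) (pow_mem hx 2)) (pow_mem hx 3)
    have hD := aeval_fun_mem B hx D
    rw [h1]
    exact add_mem (sub_mem (pow_mem hD 2) (mul_mem (mul_mem
      (const_mem_ringB V I hI (pow_mem (natCast_mem V u) 2)) hD) hσ))
      (mul_mem (const_mem_ringB V I hI (pow_mem (natCast_mem V u) 4)) hσ)
  set φ₀ : Fin 4 → K := fun j => y (z j) with hφ₀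
  have hφ₀inv : (φ₀⁻¹) ^ 2 ∈ B := by
    rw [hφ₀, hyinv z hzn, mul_pow]
    apply mul_mem (pow_mem (const_mem_ringB V I hI huinv) 2)
    apply hysq _ (hinvB z hzB hzn)
    intro j; rw [Pi.inv_apply, inv_pow, hz4 j, inv_one]
  set Λ : Fin 4 → K := ∏ T ∈ S.powerset.erase ∅,
    (fun j => y (z j * ∏ p ∈ T, ζ p)) ^ ((-1 : ℤ) ^ T.card) with hΛ
  have hΛU : Λ ∈ unitsB B := by
    apply prod_mem
    intro T hT
    have hT0 : T ≠ ∅ := Finset.ne_of_mem_erase hT
    have hTS : T ⊆ S := Finset.mem_powerset.1 (Finset.mem_of_mem_erase hT)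
    apply zpow_mem_of _ (unitsB_inv B)
    have hwT : (∏ p ∈ T, ζ p) ^ n = 1 := prod_pow_eq_one ζ n T fun q hq => hζn q (hTS hq)
    apply hyU (z * fun _ => ∏ p ∈ T, ζ p)
      (mul_mem hzB (const_mem_ringB V I hI (mem_of_pow_eq_one V hn0 hwT)))
    · intro j
      rw [Pi.mul_apply, mul_pow, hzn j, hwT, one_mul]
    · intro j h1
      rw [Pi.mul_apply] at h1
      obtain ⟨p, hp⟩ := Finset.nonempty_iff_ne_empty.2 hT0
      have h2 : (z j * ∏ p ∈ T, ζ p) ^ (4 * ∏ q ∈ T.erase p, q) = 1 := by rw [h1, one_pow]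
      rw [mul_pow, pow_mul, hz4 j, one_pow, one_mul, ← Finset.mul_prod_erase T ζ hp, mul_pow,
        prod_pow_eq_one ζ _ (T.erase p), mul_one,
        (hζprim p (hTS hp)).pow_eq_one_iff_dvd] at h2
      · have hpp := hSp p (hTS hp)
        rcases (Nat.Prime.dvd_mul hpp).1 h2 with h3 | h3
        · have h4 : p ∣ 2 := hpp.dvd_of_dvd_pow (show p ∣ 2 ^ 2 by simpa using h3)
          have h5 : p = 2 := (Nat.prime_dvd_prime_iff_eq hpp Nat.prime_two).1 h4
          have h6 : Odd p := hu.of_dvd_nat (hSu p (hTS hp))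
          rw [h5] at h6
          exact absurd h6 (by decide)
        · obtain ⟨q, hq, hpq⟩ := (Prime.dvd_finsetProd_iff hpp.prime _).1 h3
          have hq' := hSp q (hTS (Finset.mem_of_mem_erase hq))
          exact Finset.ne_of_mem_erase hq ((Nat.prime_dvd_prime_iff_eq hpp hq').1 hpq).symm
      · intro q hq
        rw [(hζprim q (hTS (Finset.mem_of_mem_erase hq))).pow_eq_one_iff_dvd]
        exact (Finset.dvd_prod_of_mem _ hq).mul_left 4
  have hcube : ∀ j, cube y ζ S (z j) = φ₀ j * Λ j := by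
    intro j
    unfold cube
    rw [← Finset.mul_prod_erase _ _ (Finset.empty_mem_powerset S), hΛ, Finset.prod_apply]
    simp [hφ₀]
  choose M hM hMpow using fun j => hodd (z j) (hzn j)
  obtain ⟨k, hk⟩ : Odd (∏ j, M j) := by
    apply Finset.prod_induction _ Odd (fun a b => Odd.mul) odd_one
    intro j _; exact hM j
  have hall : φ₀ ^ (2 * k + 1) * Λ ^ (2 * k + 1) = 1 := by
    funext j
    rw [Pi.mul_apply, Pi.pow_apply, Pi.pow_apply, ← mul_pow, ← hcube, ← hk,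
      ← Finset.mul_prod_erase _ _ (Finset.mem_univ j), pow_mul, hMpow, one_pow, Pi.one_apply]
  have hφ₀B : φ₀ ∈ B := by
    have h1 : φ₀ ^ (2 * k + 1) ∈ B := by
      rw [eq_inv_of_mul_eq_one_left hall]
      exact (pow_mem hΛU _).2
    have h2 : φ₀ = φ₀ ^ (2 * k + 1) * ((φ₀⁻¹) ^ 2) ^ k := by
      funext j
      have h0 : φ₀ j ≠ 0 := hy0 _ (hzn j)
      simp only [Pi.mul_apply, Pi.pow_apply, Pi.inv_apply]
      rw [← pow_mul, pow_succ, inv_pow]
      field_simp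
    rw [h2]
    exact mul_mem h1 (pow_mem hφ₀inv k)
  obtain ⟨a, ha, hsum⟩ := sum_ringB V I hI (add_mem hφ₀B (aeval_fun_mem B hzB D))
  have h1 : ∀ j, (φ₀ + fun j => aeval (z j) D) j =
      (u : K) ^ 2 / 2 * (1 + z j + z j ^ 2 + z j ^ 3) := by
    intro j
    simp only [Pi.add_apply, hφ₀]
    rw [hy4 _ (hz4 j)]; ring
  rw [h1, h1, h1, h1] at hsum
  simp only [hz, Fin.val_zero, Fin.val_one, Fin.val_two,
    show ((3 : Fin 4) : ℕ) = 3 from rfl] at hsum
  have h2 : (u : K) ^ 2 = 2 * a := by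
    linear_combination hsum / 2 - (u : K) ^ 2 / 4 * ((1 + I) + (1 + I ^ 4) +
      (1 - I ^ 2 + I ^ 3 + I ^ 4 - I ^ 5 + I ^ 7)) * hI
  have h3 := congrArg V.valuation h2
  rw [map_pow, huV, one_pow, map_mul] at h3
  have h4 : V.valuation 2 * V.valuation a < 1 :=
    lt_of_le_of_lt (mul_le_of_le_one_right' ((V.valuation_le_one_iff _).2 ha)) hV2
  rw [← h3] at h4
  exact lt_irrefl _ h4

end Vale.Agent.P033
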