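import Vale.Agent.P033.Key

namespace Vale.Agent.P033

open Polynomial

lemma zpow_mem_of {α : Type*} [DivisionMonoid α] (M : Submonoid α)
    (hinv : ∀ x ∈ M, x⁻¹ ∈ M) {x : α} (hx : x ∈ M) (k : ℤ) : x ^ k ∈ M := by
  cases k with
  | ofNat k => simpa using pow_mem hx k
  | negSucc k => rw [zpow_negSucc]; exact hinv _ (pow_mem hx _)

section Field
variable {K : Type*} [Field K]

/-- the alternating product over the cube of subsets of `S` -/
noncomputable def cube (y : K → K) (ζ : ℕ → K) (S : Finset ℕ) (r : K) : K :=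
  ∏ T ∈ S.powerset, y (r * ∏ p ∈ T, ζ p) ^ ((-1 : ℤ) ^ T.card)

lemma prod_pow_eq_one (ζ : ℕ → K) (n : ℕ) (T : Finset ℕ) (h : ∀ p ∈ T, ζ p ^ n = 1) :
    (∏ p ∈ T, ζ p) ^ n = 1 := by
  rw [← Finset.prod_pow]
  exact Finset.prod_eq_one h

lemma cube_mem_of_pair (M : Submonoid K) (hinv : ∀ x ∈ M, x⁻¹ ∈ M) (y : K → K) (ζ : ℕ → K)
    (S : Finset ℕ) (n : ℕ) (hζ : ∀ p ∈ S, ζ p ^ n = 1) (p : ℕ) (hp : p ∈ S)
    (hy : ∀ w, w ^ n = 1 → y w * (y (w * ζ p))⁻¹ ∈ M) (r : K) (hr : r ^ n = 1) :
    cube y ζ S r ∈ M := by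
  unfold cube
  rw [← Finset.insert_erase hp, Finset.prod_powerset_insert (Finset.notMem_erase p S),
    ← Finset.prod_mul_distrib]
  apply prod_mem
  intro T hT
  have hTS : T ⊆ S.erase p := Finset.mem_powerset.1 hT
  have hpT : p ∉ T := fun h => Finset.notMem_erase p S (hTS h)
  rw [Finset.prod_insert hpT, Finset.card_insert_of_notMem hpT, pow_succ, mul_neg_one, zpow_neg,
    ← inv_zpow, ← mul_zpow]
  apply zpow_mem_of M hinv
  have h1 : (r * ∏ q ∈ T, ζ q) ^ n = 1 := by
    rw [mul_pow, hr, one_mul]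
    exact prod_pow_eq_one ζ n T fun q hq => hζ q (Finset.mem_of_mem_erase (hTS hq))
  have := hy _ h1
  rwa [show r * (ζ p * ∏ q ∈ T, ζ q) = (r * ∏ q ∈ T, ζ q) * ζ p by ring]

lemma cube_mem_of_all (M : Submonoid K) (hinv : ∀ x ∈ M, x⁻¹ ∈ M) (y : K → K) (ζ : ℕ → K)
    (S : Finset ℕ) (n : ℕ) (hζ : ∀ p ∈ S, ζ p ^ n = 1)
    (hy : ∀ w, w ^ n = 1 → y w ∈ M) (r : K) (hr : r ^ n = 1) :
    cube y ζ S r ∈ M := by
  unfold cube
  apply prod_mem
  intro T hT
  have hTS : T ⊆ S := Finset.mem_powerset.1 hT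
  apply zpow_mem_of M hinv
  apply hy
  rw [mul_pow, hr, one_mul]
  exact prod_pow_eq_one ζ n T fun q hq => hζ q (hTS hq)

/-- units of a valuation subring, as a submonoid of the field -/
def unitsM (V : ValuationSubring K) : Submonoid K where
  carrier := {x | V.valuation x = 1}
  mul_mem' := by
    intro a b ha hb
    simp only [Set.mem_ofPred_eq] at ha hb ⊢
    rw [map_mul, ha, hb, mul_one]
  one_mem' := by simp

lemma unitsM_inv (V : ValuationSubring K) : ∀ x ∈ unitsM V, x⁻¹ ∈ unitsM V := by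
  intro x hx
  change V.valuation x = 1 at hx
  change V.valuation x⁻¹ = 1
  rw [map_inv₀, hx, inv_one]

lemma val_eq_one_of_sub (V : ValuationSubring K) {x : K} (hx : V.valuation (x - 1) < 1) :
    V.valuation x = 1 := by
  have := V.valuation.map_one_add_of_lt hx
  simpa using this

/-- principal units of a valuation subring, as a submonoid of the field -/
def princM (V : ValuationSubring K) : Submonoid K where
  carrier := {x | V.valuation (x - 1) < 1}
  mul_mem' := by
    intro a b ha hb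
    simp only [Set.mem_ofPred_eq] at ha hb ⊢
    have h1 : a * b - 1 = a * (b - 1) + (a - 1) := by ring
    rw [h1]
    apply V.valuation.map_add_lt _ ha
    rw [map_mul, val_eq_one_of_sub V ha, one_mul]
    exact hb
  one_mem' := by simp

lemma princM_inv (V : ValuationSubring K) : ∀ x ∈ princM V, x⁻¹ ∈ princM V := by
  intro x hx
  change V.valuation (x - 1) < 1 at hx
  change V.valuation (x⁻¹ - 1) < 1
  have h1 := val_eq_one_of_sub V hx
  have hx0 : x ≠ 0 := by
    rintro rfl; simp at h1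
  have h2 : x⁻¹ - 1 = -(x⁻¹ * (x - 1)) := by field_simp; ring
  rw [h2, Valuation.map_neg, map_mul, map_inv₀, h1, inv_one, one_mul]
  exact hx

/-- elements of complex norm one under an embedding -/
def normM (φ : K →+* ℂ) : Submonoid K where
  carrier := {x | ‖φ x‖ = 1}
  mul_mem' := by
    intro a b ha hb
    simp only [Set.mem_ofPred_eq] at ha hb ⊢
    rw [map_mul, norm_mul, ha, hb, mul_one]
  one_mem' := by simp

lemma normM_inv (φ : K →+* ℂ) : ∀ x ∈ normM φ, x⁻¹ ∈ normM φ := by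
  intro x hx
  change ‖φ x‖ = 1 at hx
  change ‖φ x⁻¹‖ = 1
  rw [map_inv₀, norm_inv, hx, inv_one]

lemma isIntegral_of_forall_mem (x : K) (h : ∀ V : ValuationSubring K, x ∈ V) :
    IsIntegral ℤ x := by
  have h1 : x ∈ (integralClosure (Subring.closure (∅ : Set K)) K).toSubring := by
    rw [← iInf_valuationSubring_superset, Subring.mem_iInf]
    intro V
    exact h V.1
  have h2 : IsIntegral (Subring.closure (∅ : Set K)) x := h1
  have : Algebra.IsIntegral ℤ (Subring.closure (∅ : Set K)) := by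
    refine ⟨fun a => ?_⟩
    have ha : (a : K) ∈ (⊥ : Subring K) := by
      rw [← Subring.closure_empty]; exact a.2
    obtain ⟨k, hk⟩ := Subring.mem_bot.1 ha
    have : a = algebraMap ℤ _ k := by
      apply Subtype.ext
      rw [← hk]; simp
    rw [this]
    exact isIntegral_algebraMap
  exact isIntegral_trans x h2

lemma natCast_val_le (V : ValuationSubring K) (q : ℕ) : V.valuation (q : K) ≤ 1 :=
  (V.valuation_le_one_iff _).2 (natCast_mem V q)

lemma exists_val_lt_one [CharZero K] (q : ℕ) (hq : 2 ≤ q) :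
    ∃ V : ValuationSubring K, V.valuation (q : K) < 1 := by
  by_contra hcon
  push Not at hcon
  have h1 : IsIntegral ℤ ((q : K)⁻¹) := by
    apply isIntegral_of_forall_mem
    intro V
    rw [← V.valuation_le_one_iff, map_inv₀, le_antisymm (natCast_val_le V q) (hcon V), inv_one]
  have h2 : ((q : K)⁻¹) = algebraMap ℚ K ((q : ℚ)⁻¹) := by simp
  rw [h2, isIntegral_algebraMap_iff (algebraMap ℚ K).injective,
    IsIntegrallyClosed.isIntegral_iff] at h1
  obtain ⟨k, hk⟩ := h1
  have hq0 : (q : ℚ) ≠ 0 := by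
    have : q ≠ 0 := by omega
    exact_mod_cast this
  have h3 : ((q : ℤ) * k : ℤ) = 1 := by
    have : (q : ℚ) * (k : ℚ) = 1 := by
      have hk' : (k : ℚ) = (q : ℚ)⁻¹ := by simpa using hk
      rw [hk']; field_simp
    exact_mod_cast this
  have h4 := Int.eq_one_of_mul_eq_one_right (by positivity) h3
  omega

lemma exists_prime_val_lt (V : ValuationSubring K) (u : ℕ) (hu : u ≠ 0)
    (h : V.valuation (u : K) < 1) : ∃ p : ℕ, p.Prime ∧ p ∣ u ∧ V.valuation (p : K) < 1 := by
  induction u using induction_on_primes with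
  | zero => exact absurd rfl hu
  | one => simp at h
  | prime_mul p a hp ih =>
    by_cases h1 : V.valuation (p : K) < 1
    · exact ⟨p, hp, dvd_mul_right _ _, h1⟩
    · have h2 : V.valuation (p : K) = 1 := le_antisymm (natCast_val_le V p) (not_lt.1 h1)
      rw [Nat.cast_mul, map_mul, h2, one_mul] at h
      obtain ⟨q, hq, hqa, hqv⟩ := ih (right_ne_zero_of_mul hu) h
      exact ⟨q, hq, hqa.mul_left _, hqv⟩

lemma not_two_lt_of_odd (V : ValuationSubring K) (p : ℕ) (hp : Odd p)
    (h : V.valuation (p : K) < 1) : ¬ V.valuation (2 : K) < 1 := by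
  intro h2
  obtain ⟨k, rfl⟩ := hp
  have h3 : (1 : K) = ((2 * k + 1 : ℕ) : K) - 2 * (k : K) := by push_cast; ring
  have h4 : V.valuation (2 * (k : K)) < 1 := by
    rw [map_mul]
    exact lt_of_le_of_lt (mul_le_of_le_one_right' (natCast_val_le V k)) h2
  have h5 := V.valuation.map_sub_lt h h4
  rw [← h3] at h5
  simp at h5

lemma eq_one_of_two_pow (V : ValuationSubring K) (h2 : ¬ V.valuation (2 : K) < 1) (e : ℕ) :
    ∀ η : K, η ^ (2 ^ e) = 1 → η ∈ princM V → η = 1 := by
  induction e with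
  | zero => intro η h _; simpa using h
  | succ e ih =>
    intro η h hη
    have h3 : η ^ 2 = 1 := by
      apply ih _ _ (pow_mem hη 2)
      rw [← pow_mul, ← h, pow_succ, mul_comm]
    rcases sq_eq_one_iff.1 h3 with h4 | h4
    · exact h4
    · exfalso
      apply h2
      change V.valuation (η - 1) < 1 at hη
      rw [h4, show (-1 - 1 : K) = -2 by norm_num, Valuation.map_neg] at hη
      exact hη

lemma exists_odd_order (V : ValuationSubring K) (h2 : ¬ V.valuation (2 : K) < 1) (x : K)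
    (m : ℕ) (hm : 0 < m) (hx : x ^ m = 1) (hxV : x ∈ princM V) : ∃ M : ℕ, Odd M ∧ x ^ M = 1 := by
  obtain ⟨e, M, hM, rfl⟩ := Nat.exists_eq_two_pow_mul_odd hm.ne'
  refine ⟨M, hM, eq_one_of_two_pow V h2 e _ ?_ (pow_mem hxV M)⟩
  rw [← pow_mul, mul_comm, hx]

lemma aeval_mem_subring {A : Type*} [CommRing A] (B : Subring A) {x : A} (hx : x ∈ B)
    (q : ℤ[X]) : aeval x q ∈ B := by
  rw [aeval_eq_sum_range]
  apply sum_mem
  intro i _
  exact zsmul_mem (pow_mem hx i) _

end Field

end Vale.Agent.P033
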